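import Vale.Agent.P235.ST.H317.Defs2
import Vale.Agent.P235.ST.H119.Clock

/-! P235, (ST) O(1): rows r6 + r7 (bumps). helper243. -/

namespace Vale.Agent.P235.STO.H243

open SimpleGraph
open Vale.Agent.P235.STO.H119 (bi_of_reach exists_mid D_lip D_T)

variable {V : Type} (W : LWorld V)

/-! ### elementary -/

theorem th_pos (k : ℕ) : (0 : ℤ) < th k := by unfold th; positivity

theorem th_posR (k : ℕ) : (0 : ℝ) < (th k : ℝ) := by exact_mod_cast th_pos k

theorem th_cast (k : ℕ) : (th k : ℝ) = 16 * 2 ^ k := by unfold th; push_cast; ring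

theorem exists_th {a : ℝ} (ha : 16 ≤ a) : ∃ k : ℕ, (th k : ℝ) ≤ a ∧ a < 2 * (th k : ℝ) := by
  obtain ⟨n, h1, h2⟩ := exists_nat_pow_near (x := a / 16) (y := (2 : ℝ)) (by linarith) (by norm_num)
  refine ⟨n, ?_, ?_⟩
  · rw [th_cast]; linarith
  · rw [th_cast]; rw [pow_succ] at h2; linarith

theorem pos_eq (k m : ℕ) (x : V) :
    W.pos k m x = W.u x + m * 2 ^ k - th k * W.bi k m x := by
  unfold LWorld.pos LWorld.bi
  have := Int.emod_add_mul_ediv (W.u x + m * 2 ^ k) (th k)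
  linarith

theorem pos_nonneg (k m : ℕ) (x : V) : 0 ≤ W.pos k m x :=
  Int.emod_nonneg _ (th_pos k).ne'

theorem pos_lt (k m : ℕ) (x : V) : W.pos k m x < th k :=
  Int.emod_lt_of_pos _ (th_pos k)

/-- height distance to the boundary of the band -/
noncomputable def hd (k m : ℕ) (x : V) : ℝ :=
  min (W.pos k m x : ℝ) ((th k : ℝ) - W.pos k m x)

theorem hd_same {k m : ℕ} {x y : V} (h : W.G.Adj x y) (hb : W.bi k m x = W.bi k m y) :
    |hd W k m x - hd W k m y| ≤ 1 := by
  have h1 := W.unit x y h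
  have h2 : W.pos k m x - W.pos k m y = W.u x - W.u y := by
    rw [pos_eq, pos_eq, hb]; ring
  have h3 : |(W.pos k m x : ℝ) - W.pos k m y| = 1 := by
    have : |W.pos k m x - W.pos k m y| = 1 := by rw [h2]; exact h1
    exact_mod_cast this
  unfold hd
  refine (abs_min_sub_min_le_max _ _ _ _).trans ?_
  apply max_le
  · exact h3.le
  · have : (th k : ℝ) - W.pos k m x - ((th k : ℝ) - W.pos k m y)
        = -((W.pos k m x : ℝ) - W.pos k m y) := by ring
    rw [this, abs_neg]; exact h3.le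

theorem hd_cross {k m : ℕ} {x y : V} (h : W.G.Adj x y) (hb : W.bi k m x ≠ W.bi k m y) :
    hd W k m x ≤ 1 := by
  have h1 := W.unit x y h
  have hx := pos_eq W k m x
  have hy := pos_eq W k m y
  have a1 := pos_nonneg W k m x
  have a2 := pos_lt W k m x
  have b1 := pos_nonneg W k m y
  have b2 := pos_lt W k m y
  have t0 := th_pos k
  have hd1 := (abs_le.1 h1.le).1
  have hd2 := (abs_le.1 h1.le).2
  rcases lt_or_gt_of_ne hb with hlt | hgt
  · -- bi x < bi y : pos x = th - 1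
    have : th k ≤ th k * (W.bi k m y - W.bi k m x) := by nlinarith
    have : th k - W.pos k m x ≤ 1 := by nlinarith
    unfold hd
    refine (min_le_right _ _).trans ?_
    exact_mod_cast this
  · have : th k ≤ th k * (W.bi k m x - W.bi k m y) := by nlinarith
    have : W.pos k m x ≤ 1 := by nlinarith
    unfold hd
    refine (min_le_left _ _).trans ?_
    exact_mod_cast this

theorem hd_mid {k m : ℕ} {z : V} (h : W.mid k m z) : (th k : ℝ) / 4 ≤ hd W k m z := by
  obtain ⟨h1, h2⟩ := h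
  have h1' : (4 * 2 ^ k : ℝ) ≤ W.pos k m z := by exact_mod_cast h1
  have h2' : (W.pos k m z : ℝ) ≤ 12 * 2 ^ k := by exact_mod_cast h2
  unfold hd
  rw [th_cast]
  apply le_min <;> linarith

/-- amplitude -/
noncomputable def amp (ρ : V → ℝ) (k m : ℕ) (x : V) : ℝ :=
  min (min (4 * dl * ρ x - th k) (4 * th k - d1 * ρ x)) (hd W k m x)

/-- tent on the clock -/
noncomputable def tent (k n : ℕ) (D : ℝ) : ℝ := (th k : ℝ) / 4 - |D - n * ((th k : ℝ) / 4)|

/-- bump -/
noncomputable def bump (ρ : V → ℝ) (k m n : ℕ) (x : V) : ℝ :=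
  max 0 (min (amp W ρ k m x) (tent k n (W.D k m x)))

theorem bump_nonneg (ρ : V → ℝ) (k m n : ℕ) (x : V) : 0 ≤ bump W ρ k m n x := le_max_left _ _

theorem bump_le_hd (ρ : V → ℝ) (k m n : ℕ) (x : V) : bump W ρ k m n x ≤ hd W k m x ⊔ 0 := by
  unfold bump
  rw [max_comm]
  apply max_le_max_right
  exact (min_le_left _ _).trans (min_le_right _ _)

theorem bump_le_th (ρ : V → ℝ) (k m n : ℕ) (x : V) : bump W ρ k m n x ≤ (th k : ℝ) / 4 := by
  unfold bump
  apply max_le (by have := th_posR k; positivity)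
  refine (min_le_right _ _).trans ?_
  unfold tent
  linarith [abs_nonneg ((W.D k m x : ℝ) - n * ((th k : ℝ) / 4))]

theorem bump_ne {ρ : V → ℝ} {k m n : ℕ} {x : V} (h : bump W ρ k m n x ≠ 0) :
    (th k : ℝ) < 4 * dl * ρ x ∧ d1 * ρ x < 4 * th k ∧ 0 < tent k n (W.D k m x) := by
  by_contra hc
  apply h
  unfold bump
  apply max_eq_left
  by_contra h2
  push Not at h2
  apply hc
  have h3 := lt_min_iff.1 h2
  have h4 := lt_min_iff.1 h3.1
  have h5 := lt_min_iff.1 h4.1
  exact ⟨by linarith [h5.1], by linarith [h5.2], h3.2⟩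

theorem tent_pos_iff {k n D : ℕ} (h : 0 < tent k n D) :
    n = D / (4 * 2 ^ k) ∨ n = D / (4 * 2 ^ k) + 1 := by
  unfold tent at h
  have h1 : |(D : ℝ) - n * ((th k : ℝ) / 4)| < (th k : ℝ) / 4 := by linarith
  rw [th_cast] at h1
  have h2 := (abs_lt.1 h1).1
  have h3 := (abs_lt.1 h1).2
  have h4 : (n : ℝ) * (4 * 2 ^ k) < D + 4 * 2 ^ k := by linarith
  have h5 : (D : ℝ) < (n + 1) * (4 * 2 ^ k) := by linarith
  have h4' : n * (4 * 2 ^ k) < D + 4 * 2 ^ k := by exact_mod_cast h4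
  have h5' : D < (n + 1) * (4 * 2 ^ k) := by exact_mod_cast h5
  have hq : 0 < 4 * 2 ^ k := by positivity
  have h6 : D / (4 * 2 ^ k) < n + 1 := (Nat.div_lt_iff_lt_mul hq).2 h5'
  have h7 : n < D / (4 * 2 ^ k) + 2 := by
    by_contra hcon
    push Not at hcon
    have h8 : (D / (4 * 2 ^ k) + 2) * (4 * 2 ^ k) ≤ n * (4 * 2 ^ k) := Nat.mul_le_mul_right _ hcon
    have h9 : D < (D / (4 * 2 ^ k) + 1) * (4 * 2 ^ k) := by
      have := Nat.lt_succ_self (D / (4 * 2 ^ k))
      exact (Nat.div_lt_iff_lt_mul hq).1 this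
    nlinarith
  omega

theorem abs_max_zero (a b : ℝ) : |max 0 a - max 0 b| ≤ |a - b| := by
  have := abs_max_sub_max_le_max 0 a 0 b
  simpa using this

theorem D_adj [Finite V] {k m : ℕ} {x y : V} (h : W.G.Adj x y) (hb : W.bi k m x = W.bi k m y) :
    |(W.D k m x : ℝ) - W.D k m y| ≤ 1 := by
  have hadj : (W.Bg k m).Adj x y := ⟨h, hb⟩
  have h1 := D_lip W k m hadj.reachable
  have h2 := D_lip W k m hadj.symm.reachable
  rw [(SimpleGraph.dist_eq_one_iff_adj).2 hadj] at h1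
  rw [(SimpleGraph.dist_eq_one_iff_adj).2 hadj.symm] at h2
  have h1' : (W.D k m y : ℝ) ≤ W.D k m x + 1 := by exact_mod_cast h1
  have h2' : (W.D k m x : ℝ) ≤ W.D k m y + 1 := by exact_mod_cast h2
  rw [abs_le]; constructor <;> linarith

theorem d_adj {x y : V} (h : W.G.Adj x y) : W.d x y = 1 := by
  unfold LWorld.d
  rw [(SimpleGraph.dist_eq_one_iff_adj).2 h]; norm_num

theorem bump_lip [Finite V] {ρ : V → ℝ} (hρ : W.Scale ρ) {k m n : ℕ} {x y : V}
    (h : W.G.Adj x y) (hb : W.bi k m x = W.bi k m y) :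
    |bump W ρ k m n x - bump W ρ k m n y| ≤ 1 := by
  have hl := hρ.lip x y
  rw [d_adj W h] at hl
  unfold bump
  refine (abs_max_zero _ _).trans ?_
  refine (abs_min_sub_min_le_max _ _ _ _).trans ?_
  apply max_le
  · unfold amp
    refine (abs_min_sub_min_le_max _ _ _ _).trans ?_
    apply max_le
    · refine (abs_min_sub_min_le_max _ _ _ _).trans ?_
      apply max_le
      · have e : 4 * dl * ρ x - (th k : ℝ) - (4 * dl * ρ y - th k) = 4 * dl * (ρ x - ρ y) := by ring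
        rw [e, abs_mul]
        have : |4 * dl| = 1 / 2 ^ 23 := by unfold dl; rw [abs_of_pos] <;> norm_num
        rw [this]
        have h2 : |ρ x - ρ y| ≤ 2 ^ 22 := by
          refine hl.trans ?_
          unfold kap; norm_num
        calc (1 / 2 ^ 23 : ℝ) * |ρ x - ρ y| ≤ 1 / 2 ^ 23 * 2 ^ 22 := by
              apply mul_le_mul_of_nonneg_left h2 (by norm_num)
          _ ≤ 1 := by norm_num
      · have e : 4 * (th k : ℝ) - d1 * ρ x - (4 * th k - d1 * ρ y) = -(d1 * (ρ x - ρ y)) := by ring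
        rw [e, abs_neg, abs_mul]
        have : |d1| = 1 / 2 ^ 100 := by unfold d1; rw [abs_of_pos]; norm_num
        rw [this]
        have h2 : |ρ x - ρ y| ≤ 2 ^ 22 := by
          refine hl.trans ?_
          unfold kap; norm_num
        calc (1 / 2 ^ 100 : ℝ) * |ρ x - ρ y| ≤ 1 / 2 ^ 100 * 2 ^ 22 := by
              apply mul_le_mul_of_nonneg_left h2 (by norm_num)
          _ ≤ 1 := by norm_num
    · exact hd_same W h hb
  · unfold tent
    have e : (th k : ℝ) / 4 - |(W.D k m x : ℝ) - n * ((th k : ℝ) / 4)| -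
        ((th k : ℝ) / 4 - |(W.D k m y : ℝ) - n * ((th k : ℝ) / 4)|)
        = -(|(W.D k m x : ℝ) - n * ((th k : ℝ) / 4)| - |(W.D k m y : ℝ) - n * ((th k : ℝ) / 4)|) := by
      ring
    rw [e, abs_neg]
    refine (abs_abs_sub_abs_le _ _).trans ?_
    have e2 : (W.D k m x : ℝ) - n * ((th k : ℝ) / 4) - ((W.D k m y : ℝ) - n * ((th k : ℝ) / 4))
        = (W.D k m x : ℝ) - W.D k m y := by ring
    rw [e2]
    exact D_adj W h hb

/-- component of `x` in the band graph -/
def cp' (k m : ℕ) (x : V) : (W.Bg k m).ConnectedComponent := (W.Bg k m).connectedComponentMk x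

open Classical in
/-- one bump on one component -/
noncomputable def T (ρ : V → ℝ) (k m : ℕ) (c : (W.Bg k m).ConnectedComponent) (n : ℕ) (x : V) :
    ℝ := if cp' W k m x = c then bump W ρ k m n x else 0

theorem T_nonneg (ρ : V → ℝ) (k m : ℕ) (c : (W.Bg k m).ConnectedComponent) (n : ℕ) (x : V) :
    0 ≤ T W ρ k m c n x := by
  unfold T; split_ifs
  · exact bump_nonneg W ρ k m n x
  · exact le_rfl

theorem T_edge [Finite V] {ρ : V → ℝ} (hρ : W.Scale ρ) {k m n : ℕ}
    (c : (W.Bg k m).ConnectedComponent) {x y : V} (h : W.G.Adj x y) :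
    |T W ρ k m c n x - T W ρ k m c n y| ≤ 1 := by
  by_cases hb : W.bi k m x = W.bi k m y
  · have hadj : (W.Bg k m).Adj x y := ⟨h, hb⟩
    have hc : cp' W k m x = cp' W k m y := by
      unfold cp'
      exact SimpleGraph.ConnectedComponent.eq.2 hadj.reachable
    unfold T
    rw [hc]
    split_ifs
    · exact bump_lip W hρ h hb
    · simp
  · have hx : T W ρ k m c n x ≤ 1 := by
      unfold T; split_ifs
      · refine (bump_le_hd W ρ k m n x).trans ?_
        exact max_le (hd_cross W h hb) zero_le_one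
      · exact zero_le_one
    have hy : T W ρ k m c n y ≤ 1 := by
      unfold T; split_ifs
      · refine (bump_le_hd W ρ k m n y).trans ?_
        exact max_le (hd_cross W h.symm (Ne.symm hb)) zero_le_one
      · exact zero_le_one
    have h0 := T_nonneg W ρ k m c n x
    have h0' := T_nonneg W ρ k m c n y
    rw [abs_le]; constructor <;> linarith

/-- active thicknesses -/
def act (ρ : V → ℝ) (k : ℕ) (x : V) : Prop := (th k : ℝ) < 4 * dl * ρ x ∧ d1 * ρ x < 4 * th k

theorem act_card {ρ : V → ℝ} (x : V) (M : ℕ) [DecidablePred fun k : Fin M => act ρ (k : ℕ) x] :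
    ((Finset.univ : Finset (Fin M)).filter fun k : Fin M => act ρ (k : ℕ) x).card ≤ 80 := by
  classical
  set S := (Finset.univ : Finset (Fin M)).filter fun k : Fin M => act ρ (k : ℕ) x with hS
  by_cases hne : S.Nonempty
  · obtain ⟨k0, hk0, hmin⟩ := S.exists_min_image (fun k => (k : ℕ)) hne
    have h0 : act ρ k0 x := (Finset.mem_filter.1 hk0).2
    have hsub : S.image (fun k : Fin M => (k : ℕ)) ⊆ Finset.Ico (k0 : ℕ) (k0 + 80) := by
      intro j hj
      obtain ⟨k, hk, rfl⟩ := Finset.mem_image.1 hj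
      have h1 : act ρ k x := (Finset.mem_filter.1 hk).2
      rw [Finset.mem_Ico]
      refine ⟨hmin k hk, ?_⟩
      by_contra hcon
      push Not at hcon
      have h2 : (2 : ℝ) ^ ((k0 : ℕ) + 80) ≤ 2 ^ (k : ℕ) := pow_le_pow_right₀ (by norm_num) hcon
      rw [pow_add] at h2
      have h3 := h1.1
      have h4 := h0.2
      rw [th_cast] at h3 h4
      unfold dl at h3
      unfold d1 at h4
      have h5 : ρ x < 2 ^ 100 * (4 * (16 * 2 ^ (k0 : ℕ))) := by
        have : (1 : ℝ) / 2 ^ 100 * ρ x * 2 ^ 100 < 4 * (16 * 2 ^ (k0 : ℕ)) * 2 ^ 100 := by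
          apply mul_lt_mul_of_pos_right h4 (by positivity)
        have e : (1 : ℝ) / 2 ^ 100 * ρ x * 2 ^ 100 = ρ x := by
          rw [mul_right_comm]; norm_num
        rw [e] at this
        linarith
      have h6 : (16 : ℝ) * (2 ^ (k0 : ℕ) * 2 ^ 80) < 4 * (1 / 2 ^ 25) * (2 ^ 100 * (4 * (16 * 2 ^ (k0 : ℕ)))) := by
        have a1 : (16 : ℝ) * (2 ^ (k0 : ℕ) * 2 ^ 80) ≤ 16 * 2 ^ (k : ℕ) := by linarith
        have a2 : 4 * (1 / 2 ^ 25 : ℝ) * ρ x < 4 * (1 / 2 ^ 25) * (2 ^ 100 * (4 * (16 * 2 ^ (k0 : ℕ)))) := by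
          apply mul_lt_mul_of_pos_left h5 (by norm_num)
        linarith
      have h7 : (0 : ℝ) < 2 ^ (k0 : ℕ) := by positivity
      have h8 : 4 * (1 / 2 ^ 25 : ℝ) * (2 ^ 100 * (4 * (16 * 2 ^ (k0 : ℕ)))) = 2 ^ 83 * 2 ^ (k0 : ℕ) := by
        norm_num; ring
      have h9 : (16 : ℝ) * (2 ^ (k0 : ℕ) * 2 ^ 80) = 2 ^ 84 * 2 ^ (k0 : ℕ) := by
        norm_num; ring
      rw [h8, h9] at h6
      nlinarith
    calc S.card = (S.image (fun k : Fin M => (k : ℕ))).card := by
          rw [Finset.card_image_of_injective _ Fin.val_injective]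
      _ ≤ (Finset.Ico (k0 : ℕ) (k0 + 80)).card := Finset.card_le_card hsub
      _ = 80 := by simp
  · rw [Finset.not_nonempty_iff_eq_empty.1 hne]; simp

theorem T_ne {ρ : V → ℝ} {k m n : ℕ} {c : (W.Bg k m).ConnectedComponent} {x : V}
    (h : T W ρ k m c n x ≠ 0) :
    act ρ k x ∧ c = cp' W k m x ∧
      (n = W.D k m x / (4 * 2 ^ k) ∨ n = W.D k m x / (4 * 2 ^ k) + 1) := by
  unfold T at h
  split_ifs at h with hc
  · obtain ⟨h1, h2, h3⟩ := bump_ne W h
    exact ⟨⟨h1, h2⟩, hc.symm, tent_pos_iff h3⟩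
  · exact absurd rfl h

theorem T_le (ρ : V → ℝ) (k m : ℕ) (c : (W.Bg k m).ConnectedComponent) (n : ℕ) (x : V) :
    T W ρ k m c n x ≤ (th k : ℝ) / 4 := by
  unfold T; split_ifs
  · exact bump_le_th W ρ k m n x
  · have := th_posR k; positivity

open Classical in
/-- the pairs (component, n) which can be non zero at `x` -/
noncomputable def supp (k m Nn : ℕ) (x : V) :
    Finset ((W.Bg k m).ConnectedComponent × Fin Nn) :=
  if h : ∃ a : Fin Nn, (a : ℕ) = W.D k m x / (4 * 2 ^ k) then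
    (if h' : ∃ b : Fin Nn, (b : ℕ) = W.D k m x / (4 * 2 ^ k) + 1 then
      {(cp' W k m x, h.choose), (cp' W k m x, h'.choose)}
    else {(cp' W k m x, h.choose)})
  else (if h' : ∃ b : Fin Nn, (b : ℕ) = W.D k m x / (4 * 2 ^ k) + 1 then
      {(cp' W k m x, h'.choose)} else ∅)

theorem supp_card (k m Nn : ℕ) (x : V) : (supp W k m Nn x).card ≤ 2 := by
  classical
  unfold supp
  split_ifs
  · exact Finset.card_le_two
  · simp
  · simp
  · simp

theorem mem_supp {ρ : V → ℝ} {k m Nn : ℕ} {c : (W.Bg k m).ConnectedComponent} {n : Fin Nn}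
    {x : V} (h : T W ρ k m c n x ≠ 0) : (c, n) ∈ supp W k m Nn x := by
  classical
  obtain ⟨_, hc, hn⟩ := T_ne W h
  subst hc
  unfold supp
  rcases hn with hn | hn
  · have h1 : ∃ a : Fin Nn, (a : ℕ) = W.D k m x / (4 * 2 ^ k) := ⟨n, hn⟩
    have h2 : h1.choose = n := Fin.ext (h1.choose_spec.trans hn.symm)
    rw [dif_pos h1]
    split_ifs
    · rw [h2]; simp
    · rw [h2]; simp
  · have h1 : ∃ a : Fin Nn, (a : ℕ) = W.D k m x / (4 * 2 ^ k) + 1 := ⟨n, hn⟩
    have h2 : h1.choose = n := Fin.ext (h1.choose_spec.trans hn.symm)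
    split_ifs
    · rw [h2]; simp
    · rw [h2]; simp

section sums

variable [Fintype V]

noncomputable instance (k m : ℕ) : Fintype (W.Bg k m).ConnectedComponent :=
  Fintype.ofFinite _

theorem sum_cn_edge {ρ : V → ℝ} (hρ : W.Scale ρ) (k m Nn : ℕ) {x y : V} (h : W.G.Adj x y) :
    ∑ cn : (W.Bg k m).ConnectedComponent × Fin Nn,
      |T W ρ k m cn.1 cn.2 x - T W ρ k m cn.1 cn.2 y| ≤ 4 := by
  classical
  set S := supp W k m Nn x ∪ supp W k m Nn y with hS
  have h1 : ∑ cn : (W.Bg k m).ConnectedComponent × Fin Nn,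
      |T W ρ k m cn.1 cn.2 x - T W ρ k m cn.1 cn.2 y|
      = ∑ cn ∈ S, |T W ρ k m cn.1 cn.2 x - T W ρ k m cn.1 cn.2 y| := by
    symm
    apply Finset.sum_subset (Finset.subset_univ _)
    rintro ⟨c, n⟩ _ hn
    rw [hS, Finset.mem_union, not_or] at hn
    have a1 : T W ρ k m c n x = 0 := by
      by_contra hc; exact hn.1 (mem_supp W hc)
    have a2 : T W ρ k m c n y = 0 := by
      by_contra hc; exact hn.2 (mem_supp W hc)
    simp [a1, a2]
  rw [h1]
  calc ∑ cn ∈ S, |T W ρ k m cn.1 cn.2 x - T W ρ k m cn.1 cn.2 y| ≤ ∑ cn ∈ S, (1 : ℝ) :=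
        Finset.sum_le_sum fun cn _ => T_edge W hρ cn.1 h
    _ = S.card := by simp
    _ ≤ 4 := by
        have : S.card ≤ 2 + 2 := (Finset.card_union_le _ _).trans
          (Nat.add_le_add (supp_card W k m Nn x) (supp_card W k m Nn y))
        exact_mod_cast this

theorem sum_cn_abs (ρ : V → ℝ) (k m Nn : ℕ) (x : V) :
    ∑ cn : (W.Bg k m).ConnectedComponent × Fin Nn, |T W ρ k m cn.1 cn.2 x| ≤ (th k : ℝ) / 2 := by
  classical
  set S := supp W k m Nn x with hS
  have h1 : ∑ cn : (W.Bg k m).ConnectedComponent × Fin Nn, |T W ρ k m cn.1 cn.2 x|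
      = ∑ cn ∈ S, |T W ρ k m cn.1 cn.2 x| := by
    symm
    apply Finset.sum_subset (Finset.subset_univ _)
    rintro ⟨c, n⟩ _ hn
    have a1 : T W ρ k m c n x = 0 := by
      by_contra hc; exact hn (mem_supp W hc)
    simp [a1]
  rw [h1]
  have ht := th_posR k
  calc ∑ cn ∈ S, |T W ρ k m cn.1 cn.2 x| ≤ ∑ cn ∈ S, (th k : ℝ) / 4 :=
        Finset.sum_le_sum fun cn _ => by
          rw [abs_of_nonneg (T_nonneg W ρ k m cn.1 cn.2 x)]; exact T_le W ρ k m cn.1 cn.2 x
    _ = S.card * ((th k : ℝ) / 4) := by simp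
    _ ≤ 2 * ((th k : ℝ) / 4) := by
        apply mul_le_mul_of_nonneg_right _ (by positivity)
        exact_mod_cast supp_card W k m Nn x
    _ = (th k : ℝ) / 2 := by ring

omit [Fintype V] in
theorem T_zero_of_not_act {ρ : V → ℝ} {k m n : ℕ} {c : (W.Bg k m).ConnectedComponent} {x : V}
    (h : ¬ act ρ k x) : T W ρ k m c n x = 0 := by
  by_contra hc; exact h (T_ne W hc).1

/-- the index type -/
abbrev Ix (M Nn : ℕ) : Type :=
  Σ km : Fin M × Fin 16, (W.Bg km.1 km.2).ConnectedComponent × Fin Nn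

/-- the family -/
noncomputable def Fam (ρ : V → ℝ) (M Nn : ℕ) (i : Ix W M Nn) (x : V) : ℝ :=
  T W ρ i.1.1 i.1.2 i.2.1 i.2.2 x

theorem fam_edge {ρ : V → ℝ} (hρ : W.Scale ρ) (M Nn : ℕ) {x y : V} (h : W.G.Adj x y) :
    ∑ i : Ix W M Nn, |Fam W ρ M Nn i x - Fam W ρ M Nn i y| ≤ Cf := by
  classical
  rw [Fintype.sum_sigma]
  have h1 : ∀ km : Fin M × Fin 16,
      ∑ cn : (W.Bg km.1 km.2).ConnectedComponent × Fin Nn,
        |Fam W ρ M Nn ⟨km, cn⟩ x - Fam W ρ M Nn ⟨km, cn⟩ y| ≤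
      (if act ρ km.1 x then 4 else 0) + (if act ρ km.1 y then (4 : ℝ) else 0) := by
    intro km
    by_cases hx : act ρ km.1 x
    · rw [if_pos hx]
      refine (sum_cn_edge W hρ km.1 km.2 Nn h).trans ?_
      split_ifs <;> norm_num
    · by_cases hy : act ρ km.1 y
      · rw [if_pos hy, if_neg hx]
        refine (sum_cn_edge W hρ km.1 km.2 Nn h).trans ?_
        norm_num
      · rw [if_neg hx, if_neg hy]
        apply le_of_eq
        rw [zero_add]
        apply Finset.sum_eq_zero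
        intro cn _
        unfold Fam
        rw [T_zero_of_not_act W hx, T_zero_of_not_act W hy]; simp
  refine (Finset.sum_le_sum fun km _ => h1 km).trans ?_
  rw [Finset.sum_add_distrib]
  have h2 : ∀ z : V, ∑ km : Fin M × Fin 16, (if act ρ km.1 z then (4 : ℝ) else 0) ≤ 5120 := by
    intro z
    rw [Fintype.sum_prod_type]
    have e : ∀ k : Fin M, ∑ _m : Fin 16, (if act ρ (k : ℕ) z then (4 : ℝ) else 0) =
        16 * (if act ρ (k : ℕ) z then (4 : ℝ) else 0) := by intro k; simp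
    rw [Finset.sum_congr rfl (fun k _ => e k)]
    rw [← Finset.mul_sum, ← Finset.sum_filter, Finset.sum_const, nsmul_eq_mul]
    have := act_card (ρ := ρ) z M
    have h3 : (((Finset.univ : Finset (Fin M)).filter fun k : Fin M => act ρ (k : ℕ) z).card : ℝ)
        ≤ 80 := by exact_mod_cast this
    linarith
  have := h2 x
  have := h2 y
  unfold Cf
  norm_num
  linarith

theorem fam_abs {ρ : V → ℝ} (hρ : W.Scale ρ) (M Nn : ℕ) (x : V) :
    ∑ i : Ix W M Nn, |Fam W ρ M Nn i x| ≤ ρ x := by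
  classical
  rw [Fintype.sum_sigma]
  have h0 := hρ.nonneg x
  have h1 : ∀ km : Fin M × Fin 16,
      ∑ cn : (W.Bg km.1 km.2).ConnectedComponent × Fin Nn,
        |Fam W ρ M Nn ⟨km, cn⟩ x| ≤
      (if act ρ km.1 x then 2 * dl * ρ x else 0) := by
    intro km
    by_cases hx : act ρ km.1 x
    · rw [if_pos hx]
      refine (sum_cn_abs W ρ km.1 km.2 Nn x).trans ?_
      have := hx.1
      linarith
    · rw [if_neg hx]
      apply le_of_eq
      apply Finset.sum_eq_zero
      intro cn _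
      unfold Fam
      rw [T_zero_of_not_act W hx]; simp
  refine (Finset.sum_le_sum fun km _ => h1 km).trans ?_
  rw [Fintype.sum_prod_type]
  have e : ∀ k : Fin M, ∑ _m : Fin 16, (if act ρ (k : ℕ) x then 2 * dl * ρ x else 0) =
      16 * (if act ρ (k : ℕ) x then 2 * dl * ρ x else 0) := by intro k; simp
  rw [Finset.sum_congr rfl (fun k _ => e k)]
  rw [← Finset.mul_sum, ← Finset.sum_filter, Finset.sum_const, nsmul_eq_mul]
  have := act_card (ρ := ρ) x M
  have h3 : (((Finset.univ : Finset (Fin M)).filter fun k : Fin M => act ρ (k : ℕ) x).card : ℝ)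
      ≤ 80 := by exact_mod_cast this
  have h4 : 0 ≤ 2 * dl * ρ x := by unfold dl; positivity
  have h5 : (((Finset.univ : Finset (Fin M)).filter fun k : Fin M => act ρ (k : ℕ) x).card : ℝ)
      * (2 * dl * ρ x) ≤ 80 * (2 * dl * ρ x) := mul_le_mul_of_nonneg_right h3 h4
  have h6 : (16 : ℝ) * (80 * (2 * dl * ρ x)) ≤ ρ x := by
    unfold dl
    nlinarith
  linarith

/-! ### pairs -/

theorem tent_sum {k D : ℕ} : tent k (D / (4 * 2 ^ k)) D + tent k (D / (4 * 2 ^ k) + 1) D =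
    (th k : ℝ) / 4 := by
  have hq : 0 < 4 * 2 ^ k := by positivity
  have h1 : (D / (4 * 2 ^ k)) * (4 * 2 ^ k) ≤ D := Nat.div_mul_le_self _ _
  have h2 : D < (D / (4 * 2 ^ k) + 1) * (4 * 2 ^ k) :=
    (Nat.div_lt_iff_lt_mul hq).1 (Nat.lt_succ_self _)
  have h1' : ((D / (4 * 2 ^ k) : ℕ) : ℝ) * (4 * 2 ^ k) ≤ D := by exact_mod_cast h1
  have h2' : (D : ℝ) < (((D / (4 * 2 ^ k) : ℕ) : ℝ) + 1) * (4 * 2 ^ k) := by exact_mod_cast h2
  unfold tent
  rw [th_cast]
  push_cast
  have e : (16 * 2 ^ k / 4 : ℝ) = 4 * 2 ^ k := by ring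
  rw [e]
  have e1 : |(D : ℝ) - ((D / (4 * 2 ^ k) : ℕ) : ℝ) * (4 * 2 ^ k)| =
      (D : ℝ) - ((D / (4 * 2 ^ k) : ℕ) : ℝ) * (4 * 2 ^ k) := abs_of_nonneg (by linarith)
  have e2 : |(D : ℝ) - (((D / (4 * 2 ^ k) : ℕ) : ℝ) + 1) * (4 * 2 ^ k)| =
      -((D : ℝ) - (((D / (4 * 2 ^ k) : ℕ) : ℝ) + 1) * (4 * 2 ^ k)) :=
    abs_of_nonpos (by linarith)
  rw [e1, e2]
  ring

/-- `x` is in the plateau of thickness `k`, offset `m` -/
structure Flat (ρ : V → ℝ) (k m : ℕ) (x : V) : Prop where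
  h1 : (th k : ℝ) / 4 ≤ hd W k m x
  h2 : (th k : ℝ) ≤ 2 * dl * ρ x
  h3 : d1 * ρ x ≤ 2 * th k

omit [Fintype V] in
theorem bump_flat {ρ : V → ℝ} {k m : ℕ} {x : V} (hf : Flat W ρ k m x) (n : ℕ) :
    bump W ρ k m n x = max 0 (tent k n (W.D k m x)) := by
  have ht := th_posR k
  have h1 : (th k : ℝ) / 4 ≤ amp W ρ k m x := by
    unfold amp
    have := hf.h2
    have := hf.h3
    refine le_min (le_min ?_ ?_) hf.h1
    · linarith
    · linarith
  have h2 : tent k n (W.D k m x) ≤ (th k : ℝ) / 4 := by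
    unfold tent
    linarith [abs_nonneg ((W.D k m x : ℝ) - n * ((th k : ℝ) / 4))]
  unfold bump
  rw [min_eq_right (h2.trans h1)]

omit [Fintype V] in
theorem T_self {ρ : V → ℝ} {k m : ℕ} {x : V} (n : ℕ) :
    T W ρ k m (cp' W k m x) n x = bump W ρ k m n x := by
  unfold T; rw [if_pos rfl]

theorem tent_far {k n D D' : ℕ} (hn : n ≤ D / (4 * 2 ^ k) + 1)
    (h : (D : ℝ) + (th k : ℝ) / 2 ≤ D') : tent k n D' ≤ 0 := by
  have h1 : (D / (4 * 2 ^ k)) * (4 * 2 ^ k) ≤ D := Nat.div_mul_le_self _ _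
  have h1' : ((D / (4 * 2 ^ k) : ℕ) : ℝ) * (4 * 2 ^ k) ≤ D := by exact_mod_cast h1
  have h2 : (n : ℝ) ≤ ((D / (4 * 2 ^ k) : ℕ) : ℝ) + 1 := by exact_mod_cast hn
  have hq : (0 : ℝ) < 4 * 2 ^ k := by positivity
  unfold tent
  rw [th_cast] at h ⊢
  have e : (16 * 2 ^ k / 4 : ℝ) = 4 * 2 ^ k := by ring
  rw [e]
  have h3 : (n : ℝ) * (4 * 2 ^ k) ≤ (((D / (4 * 2 ^ k) : ℕ) : ℝ) + 1) * (4 * 2 ^ k) :=
    mul_le_mul_of_nonneg_right h2 hq.le
  have h4 : (4 * 2 ^ k : ℝ) ≤ (D' : ℝ) - n * (4 * 2 ^ k) := by linarith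
  have := le_abs_self ((D' : ℝ) - n * (4 * 2 ^ k))
  linarith

theorem exists_big (k D : ℕ) : ∃ n, n ≤ D / (4 * 2 ^ k) + 1 ∧ (th k : ℝ) / 8 ≤ tent k n D := by
  have h := tent_sum (k := k) (D := D)
  by_cases h1 : (th k : ℝ) / 8 ≤ tent k (D / (4 * 2 ^ k)) D
  · exact ⟨_, Nat.le_succ _, h1⟩
  · refine ⟨_, le_rfl, ?_⟩
    push Not at h1
    linarith

theorem tent_sep {k D D' : ℕ} (h : D < D') : ∃ n, n ≤ D / (4 * 2 ^ k) + 2 ∧
    min ((th k : ℝ) / 8) (((D' : ℝ) - D) / 2) ≤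
      |max 0 (tent k n D) - max 0 (tent k n D')| := by
  have hq : (0 : ℝ) < 4 * 2 ^ k := by positivity
  have hqN : 0 < 4 * 2 ^ k := by positivity
  have hR : (D : ℝ) < D' := by exact_mod_cast h
  set n0 := D / (4 * 2 ^ k) with hn0
  have a1 : n0 * (4 * 2 ^ k) ≤ D := Nat.div_mul_le_self _ _
  have a2 : D < (n0 + 1) * (4 * 2 ^ k) := (Nat.div_lt_iff_lt_mul hqN).1 (Nat.lt_succ_self _)
  have a1' : (n0 : ℝ) * (4 * 2 ^ k) ≤ D := by exact_mod_cast a1
  have a2' : (D : ℝ) < ((n0 : ℝ) + 1) * (4 * 2 ^ k) := by exact_mod_cast a2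
  have et : (th k : ℝ) / 4 = 4 * 2 ^ k := by rw [th_cast]; ring
  rcases le_or_gt (D' : ℝ) (((n0 : ℝ) + 1) * (4 * 2 ^ k)) with c1 | c1
  · refine ⟨n0 + 1, by omega, (min_le_right _ _).trans ?_⟩
    have t1 : tent k (n0 + 1) D = D - n0 * (4 * 2 ^ k) := by
      unfold tent; rw [et]; push_cast
      rw [abs_of_nonpos (by linarith)]; ring
    have t2 : tent k (n0 + 1) D' = D' - n0 * (4 * 2 ^ k) := by
      unfold tent; rw [et]; push_cast
      rw [abs_of_nonpos (by linarith)]; ring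
    rw [t1, t2, max_eq_right (by linarith), max_eq_right (by linarith)]
    rw [abs_sub_comm, abs_of_nonneg (by linarith)]
    linarith
  · rcases le_or_gt (D' : ℝ) (((n0 : ℝ) + 2) * (4 * 2 ^ k)) with c2 | c2
    · -- two candidates
      have t1 : tent k n0 D = (n0 + 1) * (4 * 2 ^ k) - D := by
        unfold tent; rw [et]
        rw [abs_of_nonneg (by linarith)]; ring
      have t2 : tent k n0 D' = (n0 + 1) * (4 * 2 ^ k) - D' := by
        unfold tent; rw [et]
        rw [abs_of_nonneg (by linarith)]; ring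
      have t3 : tent k (n0 + 2) D = D - (n0 + 1) * (4 * 2 ^ k) := by
        unfold tent; rw [et]; push_cast
        rw [abs_of_nonpos (by linarith)]; ring
      have t4 : tent k (n0 + 2) D' = D' - (n0 + 1) * (4 * 2 ^ k) := by
        unfold tent; rw [et]; push_cast
        rw [abs_of_nonpos (by linarith)]; ring
      by_cases c3 : ((D' : ℝ) - D) / 2 ≤ (n0 + 1) * (4 * 2 ^ k) - D
      · refine ⟨n0, by omega, (min_le_right _ _).trans ?_⟩
        rw [t1, t2, max_eq_right (by linarith), max_eq_left (by linarith), sub_zero,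
          abs_of_nonneg (by linarith)]
        exact c3
      · refine ⟨n0 + 2, by omega, (min_le_right _ _).trans ?_⟩
        push Not at c3
        rw [t3, t4, max_eq_left (by linarith), max_eq_right (by linarith), zero_sub, abs_neg,
          abs_of_nonneg (by linarith)]
        linarith
    · obtain ⟨n, hn, hb⟩ := exists_big k D
      refine ⟨n, by omega, (min_le_left _ _).trans ?_⟩
      have h2 : (n : ℝ) ≤ (n0 : ℝ) + 1 := by exact_mod_cast hn
      have h3 : (n : ℝ) * (4 * 2 ^ k) ≤ ((n0 : ℝ) + 1) * (4 * 2 ^ k) :=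
        mul_le_mul_of_nonneg_right h2 hq.le
      have h4 : tent k n D' ≤ 0 := by
        unfold tent
        rw [et]
        have := le_abs_self ((D' : ℝ) - n * (4 * 2 ^ k))
        linarith
      have ht := th_posR k
      rw [max_eq_left h4, max_eq_right (by linarith), sub_zero, abs_of_nonneg (by linarith)]
      exact hb

omit [Fintype V] in
/-- first kind of pair: another component or far on the clock -/
theorem pair1 {ρ : V → ℝ} {M Nn k m : ℕ} {z y : V} (hk : k < M) (hm : m < 16)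
    (hN : ∀ x k m, k < M → m < 16 → W.D k m x + 2 < Nn) (hf : Flat W ρ k m z)
    (h : ¬ (W.Bg k m).Reachable z y ∨ (W.D k m z : ℝ) + (th k : ℝ) / 2 ≤ W.D k m y) :
    ∃ i : Ix W M Nn, (th k : ℝ) / 8 ≤ |Fam W ρ M Nn i z - Fam W ρ M Nn i y| := by
  obtain ⟨n, hn, hb⟩ := exists_big k (W.D k m z)
  have hN' := hN z k m hk hm
  have hdiv : W.D k m z / (4 * 2 ^ k) ≤ W.D k m z := Nat.div_le_self _ _
  have hn' : n < Nn := by omega
  have ht := th_posR k
  refine ⟨⟨(⟨k, hk⟩, ⟨m, hm⟩), (cp' W k m z, ⟨n, hn'⟩)⟩, ?_⟩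
  unfold Fam
  dsimp only
  rw [T_self, bump_flat W hf, max_eq_right (by linarith)]
  have hy : T W ρ k m (cp' W k m z) n y = 0 := by
    unfold T
    split_ifs with hc
    · rcases h with h | h
      · exfalso
        apply h
        unfold cp' at hc
        exact (SimpleGraph.ConnectedComponent.eq.1 hc).symm
      · have h1 := tent_far hn h
        unfold bump
        apply max_eq_left
        exact (min_le_right _ _).trans h1
    · rfl
  rw [hy, sub_zero, abs_of_nonneg (by linarith)]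
  exact hb

omit [Fintype V] in
/-- second kind of pair: same component, both in the plateau -/
theorem pair2 {ρ : V → ℝ} {M Nn k m : ℕ} {z y : V} (hk : k < M) (hm : m < 16)
    (hN : ∀ x k m, k < M → m < 16 → W.D k m x + 2 < Nn) (hf : Flat W ρ k m z)
    (hf' : Flat W ρ k m y) (hr : (W.Bg k m).Reachable z y) (h : W.D k m z < W.D k m y) :
    ∃ i : Ix W M Nn, min ((th k : ℝ) / 8) (((W.D k m y : ℝ) - W.D k m z) / 2) ≤
      |Fam W ρ M Nn i z - Fam W ρ M Nn i y| := by
  obtain ⟨n, hn, hb⟩ := tent_sep (k := k) h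
  have hN' := hN z k m hk hm
  have hdiv : W.D k m z / (4 * 2 ^ k) ≤ W.D k m z := Nat.div_le_self _ _
  have hn' : n < Nn := by omega
  refine ⟨⟨(⟨k, hk⟩, ⟨m, hm⟩), (cp' W k m z, ⟨n, hn'⟩)⟩, ?_⟩
  have hc : cp' W k m z = cp' W k m y := by
    unfold cp'
    exact SimpleGraph.ConnectedComponent.eq.2 hr
  unfold Fam
  dsimp only
  rw [T_self, hc, T_self, bump_flat W hf, bump_flat W hf']
  exact hb

theorem exists_M (ρ : V → ℝ) (h0 : ∀ x, 0 ≤ ρ x) : ∃ M : ℕ, ∀ x, ρ x < 2 ^ M := by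
  obtain ⟨n, hn⟩ := exists_nat_gt (∑ x, ρ x)
  refine ⟨n, fun x => ?_⟩
  have h1 : ρ x ≤ ∑ x, ρ x := Finset.single_le_sum (f := ρ) (fun i _ => h0 i) (Finset.mem_univ x)
  have h2 : (n : ℝ) < 2 ^ n := by exact_mod_cast Nat.lt_two_pow_self
  linarith

theorem exists_N (M : ℕ) : ∃ Nn : ℕ, ∀ x k m, k < M → m < 16 → W.D k m x + 2 < Nn := by
  refine ⟨(∑ t : Fin M × Fin 16 × V, W.D t.1 t.2.1 t.2.2) + 3, fun x k m hk hm => ?_⟩
  have h1 : W.D k m x ≤ ∑ t : Fin M × Fin 16 × V, W.D t.1 t.2.1 t.2.2 :=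
    Finset.single_le_sum (f := fun t : Fin M × Fin 16 × V => W.D t.1 t.2.1 t.2.2)
      (fun i _ => Nat.zero_le _) (Finset.mem_univ ((⟨k, hk⟩, ⟨m, hm⟩, x) : Fin M × Fin 16 × V))
  omega

theorem far_core {ρ : V → ℝ} (hρ : W.Scale ρ) {M Nn k : ℕ} {z y : V} (hM : ∀ x, ρ x < 2 ^ M)
    (hN : ∀ x k m, k < M → m < 16 → W.D k m x + 2 < Nn) (hz : z ∈ W.N) (hy : y ∈ W.N)
    (hi : W.idx z ≤ W.idx y) (h2 : (th k : ℝ) ≤ 2 * dl * ρ z) (h3 : d1 * ρ z ≤ 2 * th k)
    (hd : 5 / 2 * (th k : ℝ) ≤ W.d z y) :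
    ∃ i : Ix W M Nn, (th k : ℝ) / 8 ≤ |Fam W ρ M Nn i z - Fam W ρ M Nn i y| := by
  obtain ⟨m, hm, hmid⟩ := exists_mid W k z
  have hk : k < M := by
    by_contra hc
    push Not at hc
    have h4 : (2 : ℝ) ^ M ≤ 2 ^ k := pow_le_pow_right₀ (by norm_num) hc
    have h5 := hM z
    have h6 := hρ.nonneg z
    rw [th_cast] at h2
    unfold dl at h2
    nlinarith
  refine pair1 W hk hm hN ⟨hd_mid W hmid, h2, h3⟩ ?_
  by_cases hr : (W.Bg k m).Reachable z y
  · right
    have h5 := D_T W k m hz hy hr hi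
    have h6 := (bi_of_reach W k m hr).2
    have h5' : (W.D k m z : ℝ) + (W.Bg k m).dist z y ≤ W.D k m y + 2 * th k := by
      exact_mod_cast h5
    have h6' : W.d z y ≤ (W.Bg k m).dist z y := by
      unfold LWorld.d; exact_mod_cast h6
    linarith
  · exact Or.inl hr

theorem bumps {ρ : V → ℝ} (h : W.Scale ρ) : ∃ (ι : Type) (_ : Fintype ι) (T : ι → V → ℝ),
    (∀ x y, W.G.Adj x y → ∑ i, |T i x - T i y| ≤ Cf) ∧ (∀ x, ∑ i, |T i x| ≤ ρ x) ∧
    ∀ z y, W.tgt ρ z y → ∃ i, 1 / 2 ^ 32 * W.d z y ≤ |T i z - T i y| := by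
  obtain ⟨M, hM⟩ := exists_M ρ h.nonneg
  obtain ⟨Nn, hN⟩ := exists_N W M
  refine ⟨Ix W M Nn, inferInstance, Fam W ρ M Nn, fun x y hxy => fam_edge W h M Nn hxy,
    fun x => fam_abs W h M Nn x, ?_⟩
  rintro z y ⟨hz, hy, hu, hi, hr0, _, hle, hcase⟩
  have h0 := h.nonneg z
  have hd0 : (0 : ℝ) < W.d z y := lt_of_lt_of_le (by unfold r0; norm_num) hr0
  by_cases hfar : kap * ρ z < 2 * W.d z y
  · have ha : (16 : ℝ) ≤ dl * ρ z / 2 := by
      have : (2 : ℝ) ^ 90 ≤ ρ z := by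
        have := hr0.trans hle
        unfold r0 at this; exact this
      unfold dl
      linarith
    obtain ⟨k, hk1, hk2⟩ := exists_th ha
    have ht := th_posR k
    obtain ⟨i, hi'⟩ := far_core W h (k := k) hM hN hz hy hi (by unfold dl at *; linarith)
      (by unfold d1; unfold dl at *; linarith) (by unfold kap at hfar; unfold dl at *; linarith)
    refine ⟨i, le_trans ?_ hi'⟩
    unfold dl at *
    linarith
  · rcases hcase with hc | ⟨k, m, hm, ⟨hl1, hl2⟩, hmid, hs⟩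
    · exact absurd hc hfar
    push Not at hfar
    have ht := th_posR k
    rcases lt_or_ge (16 * (th k : ℝ)) (W.d z y) with hsm | hbig
    · have ha : (16 : ℝ) ≤ W.d z y / 8 := by
        unfold r0 at hr0
        linarith
      obtain ⟨k', hk1, hk2⟩ := exists_th ha
      have ht' := th_posR k'
      obtain ⟨i, hi'⟩ := far_core W h (k := k') hM hN hz hy hi
        (by unfold kap at hfar; unfold dl at *; linarith) (by linarith) (by linarith)
      refine ⟨i, le_trans ?_ hi'⟩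
      linarith
    · have hk : k < M := by
        by_contra hc
        push Not at hc
        have h4 : (2 : ℝ) ^ M ≤ 2 ^ k := pow_le_pow_right₀ (by norm_num) hc
        have h5 := hM z
        rw [th_cast] at hl2
        unfold dl at hl2
        nlinarith
      have hfz : Flat W ρ k m z := ⟨hd_mid W hmid, by unfold dl at *; linarith, by linarith⟩
      by_cases hr : (W.Bg k m).Reachable z y
      · have hs' : cp * W.d z y ≤ (W.D k m y : ℝ) - (W.D k m z : ℝ) := by
          rcases hs with hs | hs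
          · exact absurd hr hs
          · exact hs
        have hcp : 0 < cp * W.d z y := mul_pos (by unfold cp; norm_num) hd0
        have hlt : W.D k m z < W.D k m y := by
          have : (W.D k m z : ℝ) < W.D k m y := by linarith
          exact_mod_cast this
        have hl := h.lip z y
        have hl' : W.d z y / kap ≤ ρ z / 2 := by
          rw [div_le_iff₀ (by unfold kap; norm_num)]
          unfold kap at *
          linarith
        have hab := abs_le.1 (hl.trans hl')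
        have hpos : W.pos k m y = W.pos k m z := by unfold LWorld.pos; rw [hu]
        have hfy : Flat W ρ k m y := by
          refine ⟨?_, ?_, ?_⟩
          · have := hfz.h1
            unfold hd at this ⊢
            rw [hpos]; exact this
          · unfold dl at *; linarith [hab.1, hab.2]
          · unfold d1 at *; linarith [hab.1, hab.2]
        obtain ⟨i, hi'⟩ := pair2 W hk hm hN hfz hfy hr hlt
        refine ⟨i, le_trans ?_ hi'⟩
        apply le_min
        · linarith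
        · unfold cp at *
          linarith
      · obtain ⟨i, hi'⟩ := pair1 W hk hm hN hfz (Or.inl hr)
        refine ⟨i, le_trans ?_ hi'⟩
        linarith

end sums

end Vale.Agent.P235.STO.H243

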